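import Vale.Agent.P348h.Arc2

namespace Vale.Agent.Results.P348.BiquadraticGap

open P348h

/-- Spin-one rings with bond term `f(q) = a + b q + c q²`, `H = ∑_j f(q_j)`. -/
theorem result :
    -- the matrices are spin-one matrices in the normalization of the problem
    ((∀ α, (S α).conjTranspose = S α) ∧
      S 0 * S 1 - S 1 * S 0 = Complex.I • S 2 ∧
      S 1 * S 2 - S 2 * S 1 = Complex.I • S 0 ∧
      S 2 * S 0 - S 0 * S 2 = Complex.I • S 1 ∧
      ∑ α, S α * S α = (2 : ℂ) • (1 : Matrix (Fin 3) (Fin 3) ℂ)) ∧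
    -- (1) `b = 0 < c`: uniform gap, equal to `c` on every even ring
    (∀ L : ℕ, 3 ≤ L → ∀ a c : ℝ, 0 < c →
      IsEigenvalue L a 0 c ((L * (a + c) : ℝ) : ℂ) ∧
      (∀ E : ℂ, IsEigenvalue L a 0 c E →
        E = ((L * (a + c) : ℝ) : ℂ) ∨ (E.im = 0 ∧ L * (a + c) + c ≤ E.re)) ∧
      (Even L → IsEigenvalue L a 0 c ((L * (a + c) + c : ℝ) : ℂ))) ∧
    -- (2) `b < 0` and `b ≤ c`, that is `f(1) < f(-1)` and `f(1) ≤ f(-2)`: the gap closes
    (∀ L : ℕ, 3 ≤ L → ∀ a b c : ℝ, b < 0 → b ≤ c →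
      IsEigenvalue L a b c ((L * (a + b + c) : ℝ) : ℂ) ∧
      (∀ E : ℂ, IsEigenvalue L a b c E → E.im = 0 ∧ L * (a + b + c) ≤ E.re) ∧
      IsEigenvalue L a b c
        ((L * (a + b + c) - 2 * b * (1 - Real.cos (2 * Real.pi / L)) : ℝ) : ℂ)) := by
  refine ⟨⟨S_herm, S_comm01, S_comm12, S_comm20, S_casimir⟩, ?_, ?_⟩
  · intro L hL a c hc
    refine ⟨?_, fun E hE => eig_biq hL a c hc E hE, fun hE => eig_st hL hE a c⟩
    have h := eig_gs (show 2 ≤ L by omega) a 0 c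
    rw [add_zero] at h
    exact h
  · intro L hL a b c hb hbc
    exact ⟨eig_gs (by omega) a b c, fun E hE => eig_ferro hL a b c hb.le hbc E hE,
      eig_mag (by omega) a b c⟩

end Vale.Agent.Results.P348.BiquadraticGap
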