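import Vale.Agent.P348.Defs
import Vale.Agent.P348.Final

/-!
# P348: a uniform gap for the spin-one ring with bond interaction `f(q) = (q² - 1)/3`

`f(q)` is the projector onto total bond spin `0`. The first three clauses check that `spin` is the
spin-one representation in the normalization of the problem.
-/

namespace Vale.Agent.Results.P348.SingletBondGap

open Vale.Agent.P348

theorem result :
    (∀ α : Fin 3, (spin α).IsHermitian) ∧
    (∀ α β : Fin 3, spin α * spin β - spin β * spin α
      = Complex.I • ∑ γ, (eps α β γ : ℂ) • spin γ) ∧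
    (∑ α, spin α * spin α = (2 : ℂ) • (1 : Matrix (Fin 3) (Fin 3) ℂ)) ∧
    (∀ (L : ℕ) [NeZero L], 4 ≤ L → ∀ j : ZMod L,
      inter L j * inter L j = inter L j) ∧
    (∀ (L : ℕ) [NeZero L], 4 ≤ L → Even L →
      Module.End.HasEigenvalue (ham L) 0 ∧
      ∀ μ : ℂ, Module.End.HasEigenvalue (ham L) μ →
        μ.im = 0 ∧ (μ.re = 0 ∨ 1 / 3 ≤ μ.re)) :=
  final_result

end Vale.Agent.Results.P348.SingletBondGap
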